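import Mathlib

/-!
# P365, T1.5, block Z10b-1: sets of dimension zero carrying a measure with heavy small balls

For a finite measure `μ` on `ℝ`, the set of points `x` at which, for every `e > 0`, some ball of
radius `r < e` has mass at least `r ^ d`, has Hausdorff dimension at most `d` (Vitali covering).
Hence a finite measure for which almost every point has, for every small exponent, infinitely many
heavy balls is carried by a Borel set of Hausdorff dimension `0`.
-/

open MeasureTheory Measure Set Filter Metric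
open scoped Topology ENNReal NNReal

noncomputable section

namespace P365L.Z0

/-- points with balls of mass at least `r ^ d` at arbitrarily small radii `r` -/
def Heavy (μ : Measure ℝ) (d : ℝ) : Set ℝ :=
  {x | ∀ e : ℝ, 0 < e → ∃ r : ℝ, 0 < r ∧ r < e ∧ ENNReal.ofReal (r ^ d) ≤ μ (closedBall x r)}

theorem heavy_cover (μ : Measure ℝ) (d : ℝ) (hd : 0 ≤ d) (e : ℝ) (he : 0 < e) :
    ∃ (u : Set ℝ) (r : ℝ → ℝ), Countable u ∧
      (∀ i : u, ediam (closedBall (i : ℝ) (5 * r i)) ≤ ENNReal.ofReal (10 * e)) ∧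
      (Heavy μ d ⊆ ⋃ i : u, closedBall (i : ℝ) (5 * r i)) ∧
      ∑' i : u, ediam (closedBall (i : ℝ) (5 * r i)) ^ d ≤ ENNReal.ofReal (10 ^ d) * μ univ := by
  classical
  have hex : ∀ x : ℝ, ∃ r : ℝ, x ∈ Heavy μ d →
      (0 < r ∧ r < e ∧ ENNReal.ofReal (r ^ d) ≤ μ (closedBall x r)) := by
    intro x
    by_cases hx : x ∈ Heavy μ d
    · obtain ⟨r, hr⟩ := hx e he
      exact ⟨r, fun _ => hr⟩
    · exact ⟨0, fun h => absurd h hx⟩
  choose r hr using hex
  obtain ⟨u, hut, hdisj, hcov⟩ :=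
    Vitali.exists_disjoint_subfamily_covering_enlargement_closedBall (Heavy μ d) (fun x : ℝ => x) r e
      (fun a ha => (hr a ha).2.1.le) 5 (by norm_num)
  have hcount : u.Countable := by
    refine hdisj.countable_of_nonempty_interior fun x hx => ?_
    have h0 := (hr x (hut hx)).1
    exact ⟨x, ball_subset_interior_closedBall (mem_ball_self h0)⟩
  have hdiam : ∀ i : u, ediam (closedBall (i : ℝ) (5 * r i)) ≤ ENNReal.ofReal (10 * r i) := by
    intro i
    have h0 := (hr i (hut i.2)).1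
    refine Metric.ediam_le fun x hx y hy => ?_
    rw [edist_dist]
    refine ENNReal.ofReal_le_ofReal ?_
    have h1 : dist x i ≤ 5 * r i := hx
    have h2 : dist y i ≤ 5 * r i := hy
    have h3 := dist_triangle_right x y (i : ℝ)
    linarith
  refine ⟨u, r, hcount.to_subtype, ?_, ?_, ?_⟩
  · intro i
    refine (hdiam i).trans (ENNReal.ofReal_le_ofReal ?_)
    have := (hr i (hut i.2)).2.1
    linarith
  · intro x hx
    obtain ⟨b, hb, hsub⟩ := hcov x hx
    have h0 := (hr x hx).1
    exact mem_iUnion.2 ⟨⟨b, hb⟩, hsub (mem_closedBall_self h0.le)⟩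
  · have : Countable u := hcount.to_subtype
    calc ∑' i : u, ediam (closedBall (i : ℝ) (5 * r i)) ^ d
        ≤ ∑' i : u, ENNReal.ofReal (10 ^ d) * μ (closedBall (i : ℝ) (r i)) := by
          refine ENNReal.tsum_le_tsum fun i => ?_
          have h0 := (hr i (hut i.2)).1
          have h1 := (hr i (hut i.2)).2.2
          calc ediam (closedBall (i : ℝ) (5 * r i)) ^ d
              ≤ ENNReal.ofReal (10 * r i) ^ d := ENNReal.rpow_le_rpow (hdiam i) hd
            _ = ENNReal.ofReal (10 ^ d) * ENNReal.ofReal ((r i) ^ d) := by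
                rw [ENNReal.ofReal_rpow_of_nonneg (by positivity) hd,
                  Real.mul_rpow (by norm_num) h0.le, ENNReal.ofReal_mul (by positivity)]
            _ ≤ ENNReal.ofReal (10 ^ d) * μ (closedBall (i : ℝ) (r i)) := by gcongr
      _ = ENNReal.ofReal (10 ^ d) * ∑' i : u, μ (closedBall (i : ℝ) (r i)) := ENNReal.tsum_mul_left
      _ ≤ ENNReal.ofReal (10 ^ d) * μ univ := by
          gcongr
          refine tsum_measure_le_measure_univ
            (fun i => (isClosed_closedBall.measurableSet).nullMeasurableSet) ?_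
          intro i j hij
          have : (i : ℝ) ≠ j := fun h => hij (Subtype.ext h)
          exact (hdisj i.2 j.2 this).aedisjoint

/-- The set of points with heavy balls at arbitrarily small radii has dimension at most `d`. -/
theorem dimH_heavy_le (μ : Measure ℝ) [IsFiniteMeasure μ] (d : ℝ≥0) :
    dimH (Heavy μ d) ≤ d := by
  refine dimH_le_of_hausdorffMeasure_ne_top ?_
  have hcov := fun n : ℕ => heavy_cover μ d d.2 (1 / ((n : ℝ) + 1)) (by positivity)
  choose u r hu hdi hsub hsum using hcov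
  have : ∀ n, Countable (u n) := hu
  have h := hausdorffMeasure_le_liminf_tsum (X := ℝ) (β := ℕ) (ι := fun n => u n) (d : ℝ)
    (Heavy μ d) (l := atTop) (fun n : ℕ => ENNReal.ofReal (10 * (1 / ((n : ℝ) + 1))))
    (by
      have h1 : Tendsto (fun n : ℕ => 10 * (1 / ((n : ℝ) + 1))) atTop (𝓝 (10 * 0)) :=
        tendsto_one_div_add_atTop_nhds_zero_nat.const_mul 10
      have h2 := ENNReal.tendsto_ofReal h1
      simpa using h2)
    (fun n i => closedBall (i : ℝ) (5 * r n i)) (Eventually.of_forall hdi)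
    (Eventually.of_forall hsub)
  refine (lt_of_le_of_lt (h.trans ?_)
    (ENNReal.mul_lt_top (ENNReal.ofReal_lt_top (r := 10 ^ (d : ℝ))) (measure_lt_top μ univ))).ne
  refine (liminf_le_liminf (Eventually.of_forall hsum)).trans ?_
  simp

/-- A set of dimension zero is contained in a measurable set of dimension zero. -/
theorem exists_measurable_dimH_zero (A : Set ℝ) (hA : dimH A = 0) :
    ∃ S : Set ℝ, A ⊆ S ∧ MeasurableSet S ∧ dimH S = 0 := by
  let q : ℕ → ℝ≥0 := fun k => 1 / ((k : ℝ≥0) + 1)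
  have hq : ∀ k, 0 < q k := fun k => by positivity
  refine ⟨⋂ k : ℕ, toMeasurable (μH[(q k : ℝ)]) A, subset_iInter fun k => subset_toMeasurable _ _,
    MeasurableSet.iInter fun k => measurableSet_toMeasurable _ _, ?_⟩
  have hk : ∀ k : ℕ, dimH (⋂ k : ℕ, toMeasurable (μH[(q k : ℝ)]) A) ≤ q k := by
    intro k
    refine dimH_le_of_hausdorffMeasure_ne_top ?_
    have h0 : μH[(q k : ℝ)] A = 0 := hausdorffMeasure_of_dimH_lt (by
      rw [hA]; exact_mod_cast hq k)
    have h1 : μH[(q k : ℝ)] (⋂ k : ℕ, toMeasurable (μH[(q k : ℝ)]) A) ≤ 0 := by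
      calc _ ≤ μH[(q k : ℝ)] (toMeasurable (μH[(q k : ℝ)]) A) := measure_mono (iInter_subset _ k)
        _ = 0 := by rw [measure_toMeasurable, h0]
    exact ne_of_lt (lt_of_le_of_lt h1 ENNReal.zero_lt_top)
  have hlim : Tendsto (fun k : ℕ => (q k : ℝ≥0∞)) atTop (𝓝 0) := by
    have h1 : Tendsto q atTop (𝓝 0) := by
      have h2 : Tendsto (fun k : ℕ => 1 / ((k : ℝ) + 1)) atTop (𝓝 0) :=
        tendsto_one_div_add_atTop_nhds_zero_nat
      rw [← NNReal.tendsto_coe]
      simpa [q] using h2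
    have h3 := ENNReal.tendsto_coe.2 h1
    rwa [ENNReal.coe_zero] at h3
  exact le_antisymm (ge_of_tendsto' hlim hk) bot_le

/-- Heavy balls for every exponent carry dimension zero. -/
theorem dimH_zero (μ : Measure ℝ) [IsFiniteMeasure μ] :
    dimH {x : ℝ | ∀ d : ℝ, 0 < d → ∀ e : ℝ, 0 < e →
      ∃ r : ℝ, 0 < r ∧ r < e ∧ ENNReal.ofReal (r ^ d) ≤ μ (closedBall x r)} = 0 := by
  refine le_antisymm ?_ bot_le
  refine le_of_forall_gt_imp_ge_of_dense fun c hc => ?_
  obtain ⟨d, hd0, hdc⟩ := ENNReal.lt_iff_exists_nnreal_btwn.1 hc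
  refine le_trans ?_ hdc.le
  refine (dimH_mono ?_).trans (dimH_heavy_le μ d)
  intro x hx
  exact hx d (by exact_mod_cast hd0)

/-- **Z10b-1.** If almost every point has, for every exponent `s`, infinitely many `n` with mass at
least `b n ^ s` in the ball of radius `b n ^ (1 - s)`, the measure is carried by a Borel set of
Hausdorff dimension `0`. -/
theorem dim0_seq (μ : Measure ℝ) [IsFiniteMeasure μ] (b : ℕ → ℝ) (hb : ∀ n, 0 < b n)
    (hb0 : Tendsto b atTop (𝓝 0))
    (h : ∀ s : ℝ, 0 < s → s < 1 → ∀ᵐ E ∂μ, ∃ᶠ n in atTop,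
      ENNReal.ofReal (b n ^ s) ≤ μ (Metric.closedBall E (b n ^ (1 - s)))) :
    ∃ S : Set ℝ, MeasurableSet S ∧ dimH S = 0 ∧ μ Sᶜ = 0 := by
  let s : ℕ → ℝ := fun k => 1 / ((k : ℝ) + 2)
  have hs0 : ∀ k, 0 < s k := fun k => by positivity
  have hs1 : ∀ k, s k < 1 := fun k => by
    have hk : (0 : ℝ) ≤ k := Nat.cast_nonneg k
    simp only [s]
    rw [div_lt_one (by positivity)]
    linarith
  let A : Set ℝ := {E | ∀ k, ∃ᶠ n in atTop,
      ENNReal.ofReal (b n ^ s k) ≤ μ (Metric.closedBall E (b n ^ (1 - s k)))}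
  have hA : ∀ᵐ E ∂μ, E ∈ A := ae_all_iff.2 fun k => h (s k) (hs0 k) (hs1 k)
  have hdim : dimH A = 0 := by
    refine le_antisymm ?_ bot_le
    have hk : ∀ k : ℕ, dimH A ≤ ((1 / ((k : ℝ≥0) + 1) : ℝ≥0) : ℝ≥0∞) := by
      intro k
      refine (dimH_mono ?_).trans (dimH_heavy_le μ _)
      intro x hx e he
      have hfr := hx k
      have htend : Tendsto (fun n => b n ^ (1 - s k)) atTop (𝓝 0) := by
        have h1 : 0 < 1 - s k := by linarith [hs1 k]
        have h2 := hb0.rpow_const (p := 1 - s k) (Or.inr h1.le)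
        rwa [Real.zero_rpow h1.ne'] at h2
      have hev : ∀ᶠ n in atTop, b n ^ (1 - s k) < e := htend.eventually_lt_const he
      obtain ⟨n, hn1, hn2⟩ := (hfr.and_eventually hev).exists
      refine ⟨b n ^ (1 - s k), Real.rpow_pos_of_pos (hb n) _, hn2, ?_⟩
      have hexp : (b n ^ (1 - s k)) ^ (((1 / ((k : ℝ≥0) + 1) : ℝ≥0)) : ℝ) = b n ^ s k := by
        rw [← Real.rpow_mul (hb n).le]
        congr 1
        have hk : (0 : ℝ) ≤ k := Nat.cast_nonneg k
        push_cast
        simp only [s]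
        field_simp
        ring
      rw [hexp]
      exact hn1
    have hlim : Tendsto (fun k : ℕ => ((1 / ((k : ℝ≥0) + 1) : ℝ≥0) : ℝ≥0∞)) atTop (𝓝 0) := by
      have h1 : Tendsto (fun k : ℕ => (1 / ((k : ℝ≥0) + 1) : ℝ≥0)) atTop (𝓝 0) := by
        have h2 : Tendsto (fun k : ℕ => 1 / ((k : ℝ) + 1)) atTop (𝓝 0) :=
          tendsto_one_div_add_atTop_nhds_zero_nat
        rw [← NNReal.tendsto_coe]
        simpa using h2
      have h3 := ENNReal.tendsto_coe.2 h1
      rwa [ENNReal.coe_zero] at h3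
    exact ge_of_tendsto' hlim hk
  obtain ⟨S, hAS, hS, hS0⟩ := exists_measurable_dimH_zero A hdim
  refine ⟨S, hS, hS0, ?_⟩
  refine measure_mono_null (compl_subset_compl.2 hAS) ?_
  exact hA

/-- One set for countably many measures. -/
theorem dim0_union {ι : Type*} [Countable ι] (μ : ι → Measure ℝ)
    (h : ∀ i, ∃ S : Set ℝ, MeasurableSet S ∧ dimH S = 0 ∧ μ i Sᶜ = 0) :
    ∃ S : Set ℝ, MeasurableSet S ∧ dimH S = 0 ∧ ∀ i, μ i Sᶜ = 0 := by
  choose S hS hS0 hμ using h
  refine ⟨⋃ i, S i, MeasurableSet.iUnion hS, ?_, fun i => ?_⟩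
  · rw [dimH_iUnion]
    simp [hS0]
  · exact measure_mono_null (compl_subset_compl.2 (subset_iUnion S i)) (hμ i)

end P365L.Z0
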